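import Vale.Agent.P150.Gap.Mixing
import Vale.Agent.P150.Lower.Gradient

/-!
A weak Poincaré inequality gives mixing in time independent of `n` from starts of bounded density.
-/

open Finset

namespace Vale.Agent.P150.Weak

open Gap

variable {n : ℕ}

/-- The defect in the weak Poincaré inequality scales with the square of the supremum. -/
lemma weak_scale (β : ℝ) (g : Edge n → ℝ) {K ε B : ℝ} (hB : 0 < B)
    (h : ∀ f : Conf n → ℝ, (∀ x, |f x| ≤ 1) → avg β g (fun x => f x ^ 2) - avg β g f ^ 2 ≤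
      K * (-avg β g fun x => f x * gen β g f x) + ε)
    {f : Conf n → ℝ} (hf : ∀ x, |f x| ≤ B) :
    avg β g (fun x => f x ^ 2) - avg β g f ^ 2 ≤
      K * (-avg β g fun x => f x * gen β g f x) + ε * B ^ 2 := by
  have h1 := h (B⁻¹ • f) fun x => by
    rw [Pi.smul_apply, smul_eq_mul, abs_mul, abs_inv, abs_of_pos hB, inv_mul_le_iff₀ hB, mul_one]
    exact hf x
  have e1 : avg β g (fun x => (B⁻¹ • f) x ^ 2) = B⁻¹ ^ 2 * avg β g (fun x => f x ^ 2) := by
    simp only [avg, Pi.smul_apply, smul_eq_mul, mul_sum]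
    exact sum_congr rfl fun x _ => by ring
  have e2 : avg β g (B⁻¹ • f) = B⁻¹ * avg β g f := by
    simp only [avg, Pi.smul_apply, smul_eq_mul, mul_sum]
    exact sum_congr rfl fun x _ => by ring
  have e3 : avg β g (fun x => (B⁻¹ • f) x * gen β g (B⁻¹ • f) x) =
      B⁻¹ ^ 2 * avg β g (fun x => f x * gen β g f x) := by
    simp only [avg, map_smul, Pi.smul_apply, smul_eq_mul, mul_sum]
    exact sum_congr rfl fun x _ => by ring
  rw [e1, e2, e3] at h1
  have h2 := mul_le_mul_of_nonneg_left h1 (sq_nonneg B)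
  have hBB : B * B⁻¹ = 1 := mul_inv_cancel₀ hB.ne'
  calc avg β g (fun x => f x ^ 2) - avg β g f ^ 2
      = (B * B⁻¹) ^ 2 * (avg β g (fun x => f x ^ 2) - avg β g f ^ 2) := by rw [hBB]; ring
    _ = B ^ 2 * (B⁻¹ ^ 2 * avg β g (fun x => f x ^ 2) - (B⁻¹ * avg β g f) ^ 2) := by ring
    _ ≤ _ := h2
    _ = K * ((B * B⁻¹) ^ 2 * -avg β g fun x => f x * gen β g f x) + ε * B ^ 2 := by ring
    _ = _ := by rw [hBB]; ring

lemma abs_semi_le (β : ℝ) (g : Edge n → ℝ) {t : ℝ} (ht : 0 ≤ t) {f : Conf n → ℝ} {B : ℝ}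
    (hf : ∀ x, |f x| ≤ B) (x : Conf n) : |semi β g t f x| ≤ B := by
  refine abs_le.2 ⟨?_, Lower.semi_le_const β g ht (fun y => (abs_le.1 (hf y)).2) x⟩
  have h := Lower.semi_le_const β g ht (f := -f) (B := B) (fun y => by
    rw [Pi.neg_apply]; linarith [(abs_le.1 (hf y)).1]) x
  rw [map_neg, Pi.neg_apply] at h
  linarith

/-- Decay of the second moment up to the defect. -/
lemma sq_decay (β : ℝ) (g : Edge n → ℝ) {K δ B : ℝ} (hK : 0 < K)
    (h : ∀ f : Conf n → ℝ, (∀ x, |f x| ≤ B) → avg β g (fun x => f x ^ 2) - avg β g f ^ 2 ≤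
      K * (-avg β g fun x => f x * gen β g f x) + δ)
    {f : Conf n → ℝ} (hf : ∀ x, |f x| ≤ B) (h0 : avg β g f = 0) {t : ℝ} (ht : 0 ≤ t) :
    avg β g (fun x => semi β g t f x ^ 2) ≤
      Real.exp (-(2 * t / K)) * (avg β g (fun x => f x ^ 2) - δ) + δ := by
  set V := fun s => avg β g fun x => semi β g s f x ^ 2 with hV
  set D := fun s => avg β g fun x => semi β g s f x * gen β g (semi β g s f) x with hD
  have hd : ∀ s, HasDerivAt V (2 * D s) s := by
    intro s
    have := hasDerivAt_avg_mul β g (hasDerivAt_semi_apply β g f s) (hasDerivAt_semi_apply β g f s)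
    refine (this.congr_of_eventuallyEq (Filter.Eventually.of_forall fun u => ?_)).congr_deriv ?_
    · simp only [hV, avg]
      exact sum_congr rfl fun x _ => by ring
    · simp only [hD, avg, mul_sum, ← sum_add_distrib]
      exact sum_congr rfl fun x _ => by ring
  have hde : ∀ s, 0 ≤ s → V s - δ ≤ -(K * D s) := by
    intro s hs
    have := h (semi β g s f) (abs_semi_le β g hs hf)
    rw [avg_semi, h0] at this
    simp only [hV, hD]
    linarith
  set F := fun s => Real.exp (2 * s / K) * (V s - δ) with hF'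
  have hF : ∀ s, HasDerivAt F (Real.exp (2 * s / K) * (2 / K * (V s - δ) + 2 * D s)) s := by
    intro s
    refine (((((hasDerivAt_id s).const_mul (2:ℝ)).div_const K).exp).mul
      ((hd s).sub_const δ)).congr_deriv ?_
    simp only [id]
    ring
  have hanti : AntitoneOn F (Set.Ici 0) := by
    refine antitoneOn_of_deriv_nonpos (convex_Ici 0)
      (fun s _ => (hF s).continuousAt.continuousWithinAt)
      (fun s _ => (hF s).differentiableAt.differentiableWithinAt) fun s hs => ?_
    rw [(hF s).deriv]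
    refine mul_nonpos_of_nonneg_of_nonpos (Real.exp_pos _).le ?_
    have := mul_le_mul_of_nonneg_left (hde s (interior_subset hs)) (by positivity : (0:ℝ) ≤ 2 / K)
    have e : 2 / K * -(K * D s) = -(2 * D s) := by field_simp
    linarith
  have key : F t ≤ F 0 := hanti Set.self_mem_Ici ht ht
  simp only [hF', hV, mul_zero, zero_div, Real.exp_zero, one_mul, semi_zero,
    one_apply_eq_self] at key
  have hp := mul_le_mul_of_nonneg_left key (Real.exp_pos (-(2 * t / K))).le
  rw [← mul_assoc, ← Real.exp_add, neg_add_cancel, Real.exp_zero, one_mul] at hp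
  linarith

lemma avg_abs_le_sqrt (β : ℝ) (g : Edge n → ℝ) (φ : Conf n → ℝ) :
    avg β g (fun x => |φ x|) ≤ √(avg β g fun x => φ x ^ 2) := by
  set a := avg β g fun x => |φ x| with ha
  refine Real.le_sqrt_of_sq_le ?_
  have h : 0 ≤ avg β g (fun x => (|φ x| - a) ^ 2) :=
    sum_nonneg fun x _ => mul_nonneg (gibbs_pos β g x).le (sq_nonneg _)
  have e : avg β g (fun x => (|φ x| - a) ^ 2) =
      avg β g (fun x => φ x ^ 2) - 2 * a * avg β g (fun x => |φ x|) +
        a ^ 2 * ∑ x, gibbs β g x := by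
    simp only [avg, mul_sum, ← sum_sub_distrib, ← sum_add_distrib]
    exact sum_congr rfl fun x _ => by rw [← sq_abs (φ x)]; ring
  rw [e, sum_gibbs, ← ha] at h
  linarith

/-- Total variation from a start of density at most `M`. -/
theorem warm_tv (β : ℝ) (g : Edge n → ℝ) {K ε M : ℝ} (hK : 0 < K) (hε : 0 ≤ ε) (hM : 1 ≤ M)
    (h : ∀ f : Conf n → ℝ, (∀ x, |f x| ≤ 1) → avg β g (fun x => f x ^ 2) - avg β g f ^ 2 ≤
      K * (-avg β g fun x => f x * gen β g f x) + ε)
    {ν : Conf n → ℝ} (h0 : ∀ x, 0 ≤ ν x) (h1 : ∑ x, ν x = 1) (hb : ∀ x, ν x ≤ M * gibbs β g x)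
    {t : ℝ} (ht : 0 ≤ t) :
    (∑ y, |∑ x, ν x * kernelAt β g t x y - gibbs β g y|) / 2 ≤
      M * √(Real.exp (-(2 * t / K)) + ε) / 2 := by
  set f : Conf n → ℝ := fun x => ν x / gibbs β g x - 1 with hf'
  have hμ := gibbs_pos β g
  have hf : ∀ x, |f x| ≤ M := fun x => by
    have a := div_nonneg (h0 x) (hμ x).le
    have b : ν x / gibbs β g x ≤ M := (div_le_iff₀ (hμ x)).2 (hb x)
    simp only [hf']
    exact abs_le.2 ⟨by linarith, by linarith⟩
  have hmul : ∀ x, gibbs β g x * f x = ν x - gibbs β g x := fun x => by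
    simp only [hf', mul_sub, mul_one, mul_div_cancel₀ _ (hμ x).ne']
  have hm : avg β g f = 0 := by simp only [avg, hmul, sum_sub_distrib, h1, sum_gibbs, sub_self]
  have hk : ∀ y, ∑ x, ν x * kernelAt β g t x y - gibbs β g y = gibbs β g y * semi β g t f y := by
    intro y
    have hs := semi_symm β g f (Pi.single y 1) t
    have hr : avg β g (fun x => f x * semi β g t (Pi.single y 1) x) =
        ∑ x, ν x * kernelAt β g t x y - avg β g (semi β g t (Pi.single y 1)) := by
      simp only [avg, ← sum_sub_distrib, ← mul_assoc, hmul, sub_mul]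
      exact sum_congr rfl fun x _ => rfl
    have hl : avg β g (fun x => semi β g t f x * Pi.single (M := fun _ : Conf n => ℝ) y 1 x) =
        gibbs β g y * semi β g t f y := by
      simp only [avg]
      rw [sum_eq_single y (fun x _ hx => by simp [Pi.single_eq_of_ne hx]) (by simp)]
      simp
    have hy : avg β g (Pi.single y 1) = gibbs β g y := by
      simp only [avg]
      rw [sum_eq_single y (fun x _ hx => by simp [Pi.single_eq_of_ne hx]) (by simp)]
      simp
    rw [hl, hr, avg_semi, hy] at hs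
    exact hs.symm
  have hsum : ∑ y, |∑ x, ν x * kernelAt β g t x y - gibbs β g y| =
      avg β g fun y => |semi β g t f y| :=
    sum_congr rfl fun y _ => by rw [hk y, abs_mul, abs_of_pos (hμ y)]
  rw [hsum]
  refine div_le_div_of_nonneg_right ((avg_abs_le_sqrt β g _).trans ?_) two_pos.le
  have hM0 : 0 < M := by linarith
  have hd := sq_decay β g hK (fun u hu => weak_scale β g hM0 h hu) hf hm ht
  have hv : avg β g (fun x => f x ^ 2) ≤ M ^ 2 :=
    avg_le fun x => by rw [← sq_abs]; exact pow_le_pow_left₀ (abs_nonneg _) (hf x) 2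
  have hE := Real.exp_pos (-(2 * t / K))
  have hεM : 0 ≤ ε * M ^ 2 := by positivity
  have hbound : avg β g (fun x => semi β g t f x ^ 2) ≤
      M ^ 2 * (Real.exp (-(2 * t / K)) + ε) := by nlinarith
  calc √(avg β g fun x => semi β g t f x ^ 2) ≤ √(M ^ 2 * (Real.exp (-(2 * t / K)) + ε)) :=
        Real.sqrt_le_sqrt hbound
    _ = M * √(Real.exp (-(2 * t / K)) + ε) := by
        rw [Real.sqrt_mul (sq_nonneg M), Real.sqrt_sq hM0.le]

end Vale.Agent.P150.Weak
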