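import Vale.Agent.P150.Weak.Spec
import Vale.Agent.P150.Weak.Final.Warm

/-!
The weak Poincaré inequality with an `n`-free constant, and the mixing time independent of `n` from
starts of bounded density that it implies.
-/

open MeasureTheory Filter
open scoped Topology

namespace Vale.Agent.P150.Weak

open Gap

/-- From the weak Poincaré inequality to the inequality together with mixing from warm starts. -/
theorem weakPoincare_mixing {β : ℝ} (h : WeakPoincareSpec β) :
    ∃ K : ℝ, 0 < K ∧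
      (∀ ε : ℝ, 0 < ε →
        Tendsto (fun n : ℕ => disorder n {g | ∃ f : Conf n → ℝ, (∀ x, |f x| ≤ 1) ∧
          K * (-avg β g fun x => f x * gen β g f x) + ε <
            avg β g (fun x => f x ^ 2) - avg β g f ^ 2}) atTop (𝓝 0)) ∧
      ∀ M δ : ℝ, 1 ≤ M → 0 < δ →
        Tendsto (fun n : ℕ => disorder n {g | ∃ ν : Conf n → ℝ, ∃ t : ℝ,
          (∀ x, 0 ≤ ν x ∧ ν x ≤ M * gibbs β g x) ∧ ∑ x, ν x = 1 ∧
          K * Real.log (M / δ) ≤ t ∧ 0 ≤ t ∧
          δ < (∑ y, |∑ x, ν x * kernelAt β g t x y - gibbs β g y|) / 2}) atTop (𝓝 0) := by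
  obtain ⟨K, hK, hW⟩ := h
  refine ⟨K, hK, hW, fun M δ hM hδ => ?_⟩
  have hM0 : 0 < M := by linarith
  refine tendsto_of_tendsto_of_tendsto_of_le_of_le tendsto_const_nhds
    (hW ((δ / M) ^ 2) (by positivity)) (fun n => zero_le) fun n => measure_mono fun g hg => ?_
  obtain ⟨ν, t, hν, h1, htK, ht, hlt⟩ := hg
  by_contra hno
  simp only [Set.mem_ofPred_eq, not_exists, not_and, not_lt] at hno
  have hb := warm_tv β g hK (sq_nonneg (δ / M)) hM (fun f hf => hno f hf)
    (fun x => (hν x).1) h1 (fun x => (hν x).2) ht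
  have he : Real.exp (-(2 * t / K)) ≤ (δ / M) ^ 2 := by
    have h2 : -(2 * t / K) ≤ 2 * Real.log (δ / M) := by
      rw [← inv_div M δ, Real.log_inv]
      have : Real.log (M / δ) ≤ t / K := (le_div_iff₀ hK).2 (by linarith)
      have e : 2 * t / K = 2 * (t / K) := by ring
      linarith
    refine (Real.exp_le_exp.2 h2).trans_eq ?_
    rw [two_mul, Real.exp_add, Real.exp_log (by positivity), sq]
  have hs : √(Real.exp (-(2 * t / K)) + (δ / M) ^ 2) ≤ 2 * (δ / M) := by
    refine Real.sqrt_le_iff.2 ⟨by positivity, ?_⟩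
    nlinarith [sq_nonneg (δ / M)]
  have hf : M * √(Real.exp (-(2 * t / K)) + (δ / M) ^ 2) / 2 ≤ δ := by
    calc M * √(Real.exp (-(2 * t / K)) + (δ / M) ^ 2) / 2 ≤ M * (2 * (δ / M)) / 2 :=
          div_le_div_of_nonneg_right (mul_le_mul_of_nonneg_left hs hM0.le) two_pos.le
      _ = δ := by field_simp
  linarith

end Vale.Agent.P150.Weak
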